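import Mathlib

/-! Row 73, module M2: norm attaining representations of a unital C⋆-algebra. -/

set_option autoImplicit false

namespace Crest.Agent.R73

open scoped ComplexOrder InnerProductSpace ComplexStarModule
open Complex

noncomputable section

section State

variable {O : Type} [CStarAlgebra O] [PartialOrder O] [StarOrderedRing O] [Nontrivial O]

/-- A positive element of a unital C⋆-algebra has a real positive functional attaining the norm. -/
lemma exists_real_state (a : O) (ha : 0 ≤ a) :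
    ∃ g : selfAdjoint O →ₗ[ℝ] ℝ, g 1 = 1 ∧ (∀ x : selfAdjoint O, 0 ≤ (x : O) → 0 ≤ g x) ∧
      g ⟨a, .of_nonneg ha⟩ = ‖a‖ := by
  let a' : selfAdjoint O := ⟨a, .of_nonneg ha⟩
  let P : PointedCone ℝ (selfAdjoint O) :=
    { carrier := {x | ∃ t : ℝ, 0 ≤ t ∧ 0 ≤ ((x - t • (a' - ‖a‖ • 1) : selfAdjoint O) : O)}
      add_mem' := by
        rintro x y ⟨t, ht, hx⟩ ⟨s, hs, hy⟩
        refine ⟨t + s, by positivity, ?_⟩
        have : (x + y - (t + s) • (a' - ‖a‖ • 1) : selfAdjoint O) =
          (x - t • (a' - ‖a‖ • 1)) + (y - s • (a' - ‖a‖ • 1)) := by module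
        rw [this]
        exact add_nonneg hx hy
      zero_mem' := ⟨0, le_rfl, by simp⟩
      smul_mem' := by
        rintro c x ⟨t, ht, hx⟩
        have hc : (0 : ℝ) ≤ c := c.2
        refine ⟨c * t, by positivity, ?_⟩
        have : (c • x - ((c : ℝ) * t) • (a' - ‖a‖ • 1) : selfAdjoint O) =
          (c : ℝ) • (x - t • (a' - ‖a‖ • 1)) := by
            have : c • x = (c : ℝ) • x := rfl
            rw [this]; module
        rw [this]
        exact smul_nonneg c.2 hx }
  have h1 : (1 : selfAdjoint O) ≠ 0 := fun h => one_ne_zero (α := O) (congrArg Subtype.val h)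
  have hpos : ∀ c : ℝ, 0 ≤ ((c • (1 : selfAdjoint O) : selfAdjoint O) : O) → 0 ≤ c := by
    intro c hc
    by_contra hneg
    push Not at hneg
    have h2 : ((c • (1 : selfAdjoint O) : selfAdjoint O) : O) = c • (1 : O) := rfl
    rw [h2] at hc
    have h3 : c • (1 : O) ≤ 0 := smul_nonpos_of_nonpos_of_nonneg hneg.le zero_le_one
    have h4 : c • (1 : O) = 0 := le_antisymm h3 hc
    rcases smul_eq_zero.1 h4 with h | h
    · exact hneg.ne h
    · exact one_ne_zero h
  obtain ⟨g, hg1, hg2⟩ := riesz_extension P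
    (LinearPMap.mkSpanSingleton (1 : selfAdjoint O) (1 : ℝ) h1)
    (by
      rintro ⟨x, hx⟩ hxP
      obtain ⟨c, rfl⟩ := Submodule.mem_span_singleton.1 hx
      rw [LinearPMap.mkSpanSingleton'_apply]
      simp only [RingHom.id_apply, smul_eq_mul, mul_one]
      obtain ⟨t, ht, hP⟩ := hxP
      by_contra hneg
      push Not at hneg
      -- `c - t a + t ‖a‖ ≥ 0`, so `t a ≤ c + t ‖a‖ < t ‖a‖`
      have hta : t • a ≤ (c + t * ‖a‖) • (1 : O) := by
        have e : ((c • (1 : selfAdjoint O) - t • (a' - ‖a‖ • 1) : selfAdjoint O) : O) =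
          (c + t * ‖a‖) • (1 : O) - t • a := by
          have : ((c • (1 : selfAdjoint O) - t • (a' - ‖a‖ • 1) : selfAdjoint O) : O) =
            c • (1 : O) - t • (a - ‖a‖ • 1) := rfl
          rw [this]; module
        rw [e] at hP
        exact sub_nonneg.1 hP
      have h0 : (0 : O) ≤ t • a := smul_nonneg ht ha
      have hn := CStarAlgebra.norm_le_norm_of_nonneg_of_le h0 hta
      rw [norm_smul, norm_smul, CStarRing.norm_one, mul_one, Real.norm_eq_abs, Real.norm_eq_abs,
        abs_of_nonneg ht] at hn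
      have hc0 : 0 ≤ c + t * ‖a‖ := by
        apply hpos
        exact le_trans h0 hta
      rw [abs_of_nonneg hc0] at hn
      linarith)
    (by
      intro y
      refine ⟨⟨‖(y : O)‖ • 1, Submodule.smul_mem _ _ (Submodule.mem_span_singleton_self _)⟩, 0,
        le_rfl, ?_⟩
      have h2 : -(algebraMap ℝ O ‖(y : O)‖) ≤ (y : O) := IsSelfAdjoint.neg_algebraMap_norm_le_self y.2
      have h3 : ((‖(y : O)‖ • (1 : selfAdjoint O) + y - (0 : ℝ) • (a' - ‖a‖ • 1) : selfAdjoint O) : O) =
        ‖(y : O)‖ • (1 : O) + y := by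
        have : ((‖(y : O)‖ • (1 : selfAdjoint O) + y - (0 : ℝ) • (a' - ‖a‖ • 1) : selfAdjoint O) : O)
          = ‖(y : O)‖ • (1 : O) + y - (0 : ℝ) • (a - ‖a‖ • 1) := rfl
        rw [this, zero_smul, sub_zero]
      rw [h3, add_comm, ← Algebra.algebraMap_eq_smul_one]
      exact neg_le_iff_add_nonneg.1 h2)
  have hone : g 1 = 1 := by
    exact (hg1 ⟨1, Submodule.mem_span_singleton_self _⟩).trans
      (LinearPMap.mkSpanSingleton'_apply_self _ _ _ _)
  have hcone : ∀ x : selfAdjoint O, 0 ≤ (x : O) → 0 ≤ g x := by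
    intro x hx
    refine hg2 x ⟨0, le_rfl, by simpa using hx⟩
  refine ⟨g, hone, hcone, le_antisymm ?_ ?_⟩
  · have h2 : 0 ≤ ((‖a‖ • (1 : selfAdjoint O) - a' : selfAdjoint O) : O) := by
      have : ((‖a‖ • (1 : selfAdjoint O) - a' : selfAdjoint O) : O) = ‖a‖ • (1 : O) - a := rfl
      rw [this, ← Algebra.algebraMap_eq_smul_one]
      exact sub_nonneg.2 (IsSelfAdjoint.le_algebraMap_norm_self (.of_nonneg ha))
    have h3 := hcone _ h2
    rw [map_sub, map_smul, hone, smul_eq_mul, mul_one] at h3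
    linarith
  · have h3 := hg2 (a' - ‖a‖ • 1) ⟨1, zero_le_one, by simp⟩
    rw [map_sub, map_smul, hone, smul_eq_mul, mul_one] at h3
    linarith

/-- A positive element of a unital C⋆-algebra has a state attaining the norm. -/
lemma exists_state (a : O) (ha : 0 ≤ a) :
    ∃ f : O →ₚ[ℂ] ℂ, f 1 = 1 ∧ f a = (‖a‖ : ℂ) := by
  obtain ⟨g, hg1, hg2, hg3⟩ := exists_real_state a ha
  let F : O →ₗ[ℂ] ℂ :=
    { toFun := fun x => (g (ℜ x) : ℂ) + I * (g (ℑ x) : ℂ)
      map_add' := by
        intro x y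
        rw [map_add, map_add, map_add, map_add]
        push_cast
        ring
      map_smul' := by
        intro c x
        rw [realPart_smul, imaginaryPart_smul, map_sub, map_add, map_smul, map_smul, map_smul,
          map_smul]
        simp only [smul_eq_mul, RingHom.id_apply]
        push_cast
        conv_rhs => rw [← Complex.re_add_im c]
        linear_combination (-(c.im : ℂ) * g (ℑ x)) * Complex.I_sq }
  have hsa : ∀ x : O, ∀ hx : IsSelfAdjoint x, F x = (g ⟨x, hx⟩ : ℂ) := by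
    intro x hx
    change (g (ℜ x) : ℂ) + I * (g (ℑ x) : ℂ) = _
    rw [hx.imaginaryPart, map_zero]
    have : ℜ x = ⟨x, hx⟩ := Subtype.ext hx.coe_realPart
    rw [this]; simp
  refine ⟨PositiveLinearMap.mk₀ F ?_, ?_, ?_⟩
  · intro x hx
    rw [hsa x (.of_nonneg hx)]
    exact_mod_cast hg2 _ hx
  · change F 1 = 1
    rw [hsa 1 (IsSelfAdjoint.one O)]
    have : (⟨1, IsSelfAdjoint.one O⟩ : selfAdjoint O) = 1 := rfl
    rw [this, hg1]; simp
  · change F a = _
    rw [hsa a (.of_nonneg ha), hg3]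

end State

/-- **M2**: norm attaining unital representations. -/
theorem exists_norm_attaining (O : Type) [CStarAlgebra O] [Nontrivial O] (h : O) :
    ∃ (H : Type) (_ : NormedAddCommGroup H) (_ : InnerProductSpace ℂ H) (_ : CompleteSpace H)
      (π : O →⋆ₐ[ℂ] (H →L[ℂ] H)) (ζ : H), ‖ζ‖ = 1 ∧ ‖π h ζ‖ = ‖h‖ := by
  let _ : PartialOrder O := CStarAlgebra.spectralOrder O
  let _ : StarOrderedRing O := CStarAlgebra.spectralOrderedRing O
  obtain ⟨f, hf1, hf2⟩ := exists_state (star h * h) (star_mul_self_nonneg h)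
  refine ⟨f.GNS, inferInstance, inferInstance, inferInstance, f.gnsStarAlgHom,
    ((f.toPreGNS 1 : f.PreGNS) : f.GNS), ?_, ?_⟩
  · rw [UniformSpace.Completion.norm_coe]
    have h2 : (‖f.toPreGNS (1 : O)‖ : ℂ) ^ 2 = 1 := by
      rw [f.preGNS_norm_sq]; simp [hf1]
    have h3 : ‖f.toPreGNS (1 : O)‖ ^ 2 = 1 := by exact_mod_cast h2
    have := norm_nonneg (f.toPreGNS (1 : O))
    nlinarith
  · have h1 : f.gnsStarAlgHom h ((f.toPreGNS 1 : f.PreGNS) : f.GNS) =
        ((f.toPreGNS h : f.PreGNS) : f.GNS) := by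
      have := f.gnsNonUnitalStarAlgHom_apply_coe (a := h) (b := f.toPreGNS 1)
      refine this.trans ?_
      simp
    rw [h1, UniformSpace.Completion.norm_coe]
    have h2 : (‖f.toPreGNS h‖ : ℂ) ^ 2 = ((‖h‖ * ‖h‖ : ℝ) : ℂ) := by
      rw [f.preGNS_norm_sq, ← CStarRing.norm_star_mul_self, ← hf2]; simp
    have h3 : ‖f.toPreGNS h‖ ^ 2 = ‖h‖ * ‖h‖ := by exact_mod_cast h2
    have := norm_nonneg (f.toPreGNS h)
    have := norm_nonneg h
    nlinarith

end

end Crest.Agent.R73
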