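import Crest.Agent.R73.Univ

/-! Row 73, module M1: existence of the full group C⋆-algebra and of `O₂`. -/

set_option autoImplicit false

namespace Crest.Agent.R73

open Crest.AnalysisR.CStarEmbedding

lemma norm_one_le {B : Type} [CStarAlgebra B] : ‖(1 : B)‖ ≤ 1 := by
  rcases subsingleton_or_nontrivial B with hB | hB
  · rw [Subsingleton.elim (1 : B) 0]; simp
  · rw [CStarRing.norm_one]

lemma norm_le_one_of_isometry {B : Type} [CStarAlgebra B] {t : B} (h : star t * t = 1) :
    ‖t‖ ≤ 1 := by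
  have h1 : ‖t‖ * ‖t‖ ≤ 1 := by
    rw [← CStarRing.norm_star_mul_self, h]; exact norm_one_le
  nlinarith [norm_nonneg t]

theorem exists_fullGroupCStar (Γ : Type) [Group Γ] :
    ∃ (A : Type) (_ : CStarAlgebra A) (u : Γ →* unitary A), IsFullGroupCStar A u := by
  obtain ⟨A, hA, s, h1, h2, h3⟩ := exists_universal Γ
    (fun B _ t => ∃ w : Γ →* unitary B, t = fun g => ((w g : unitary B) : B)) (fun _ => 1) (by
      rintro B _ t ⟨w, rfl⟩ x
      exact norm_le_one_of_isometry (Unitary.star_mul_self_of_mem (w x).2))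
  have hι : ∀ g, ev s (FreeAlgebra.ι ℂ (Sum.inl g)) = s g := fun g => ev_inl s g
  have hι' : ∀ g, ev s (FreeAlgebra.ι ℂ (Sum.inr g)) = star (s g) := fun g => ev_inr s g
  have hmul : ∀ g h, s (g * h) = s g * s h := by
    intro g h
    have := h3 (FreeAlgebra.ι ℂ (Sum.inl (g * h)) -
      FreeAlgebra.ι ℂ (Sum.inl g) * FreeAlgebra.ι ℂ (Sum.inl h)) (by
        rintro B _ t ⟨w, rfl⟩
        rw [map_sub, map_mul, ev_inl, ev_inl, ev_inl]
        simp)
    rw [map_sub, map_mul, hι, hι, hι, sub_eq_zero] at this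
    exact this
  have hone : s 1 = 1 := by
    have := h3 (FreeAlgebra.ι ℂ (Sum.inl 1) - 1) (by
        rintro B _ t ⟨w, rfl⟩
        rw [map_sub, map_one, ev_inl]
        simp)
    rw [map_sub, map_one, hι, sub_eq_zero] at this
    exact this
  have hstar1 : ∀ g, star (s g) * s g = 1 := by
    intro g
    have := h3 (FreeAlgebra.ι ℂ (Sum.inr g) * FreeAlgebra.ι ℂ (Sum.inl g) - 1) (by
        rintro B _ t ⟨w, rfl⟩
        rw [map_sub, map_mul, map_one, ev_inl, ev_inr, sub_eq_zero]
        exact Unitary.star_mul_self_of_mem (w g).2)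
    rw [map_sub, map_mul, map_one, hι, hι', sub_eq_zero] at this
    exact this
  have hstar2 : ∀ g, s g * star (s g) = 1 := by
    intro g
    have := h3 (FreeAlgebra.ι ℂ (Sum.inl g) * FreeAlgebra.ι ℂ (Sum.inr g) - 1) (by
        rintro B _ t ⟨w, rfl⟩
        rw [map_sub, map_mul, map_one, ev_inl, ev_inr, sub_eq_zero]
        exact Unitary.mul_star_self_of_mem (w g).2)
    rw [map_sub, map_mul, map_one, hι, hι', sub_eq_zero] at this
    exact this
  let u : Γ →* unitary A :=
    { toFun := fun g => ⟨s g, Unitary.mem_iff.2 ⟨hstar1 g, hstar2 g⟩⟩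
      map_one' := Subtype.ext hone
      map_mul' := fun g h => Subtype.ext (hmul g h) }
  refine ⟨A, hA, u, h1, ?_⟩
  intro B _ w
  obtain ⟨φ, hφ⟩ := h2 B (fun g => ((w g : unitary B) : B)) ⟨w, rfl⟩
  exact ⟨φ, hφ⟩

theorem exists_cuntzTwo :
    ∃ (O : Type) (_ : CStarAlgebra O) (s₁ s₂ : O), IsCuntzTwo O s₁ s₂ := by
  obtain ⟨A, hA, s, h1, h2, h3⟩ := exists_universal Bool
    (fun B _ t => star (t false) * t false = 1 ∧ star (t true) * t true = 1 ∧
      t false * star (t false) + t true * star (t true) = 1) (fun _ => 1) (by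
      rintro B _ t ⟨ha, hb, -⟩ x
      cases x
      · exact norm_le_one_of_isometry ha
      · exact norm_le_one_of_isometry hb)
  have hι : ∀ g, ev s (FreeAlgebra.ι ℂ (Sum.inl g)) = s g := fun g => ev_inl s g
  have hι' : ∀ g, ev s (FreeAlgebra.ι ℂ (Sum.inr g)) = star (s g) := fun g => ev_inr s g
  have hiso : ∀ b, star (s b) * s b = 1 := by
    intro b
    have := h3 (FreeAlgebra.ι ℂ (Sum.inr b) * FreeAlgebra.ι ℂ (Sum.inl b) - 1) (by
        rintro B _ t ⟨ha, hb, -⟩
        rw [map_sub, map_mul, map_one, ev_inl, ev_inr, sub_eq_zero]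
        cases b
        · exact ha
        · exact hb)
    rw [map_sub, map_mul, map_one, hι, hι', sub_eq_zero] at this
    exact this
  have hsum : s false * star (s false) + s true * star (s true) = 1 := by
    have := h3 (FreeAlgebra.ι ℂ (Sum.inl false) * FreeAlgebra.ι ℂ (Sum.inr false) +
      FreeAlgebra.ι ℂ (Sum.inl true) * FreeAlgebra.ι ℂ (Sum.inr true) - 1) (by
        rintro B _ t ⟨-, -, hc⟩
        rw [map_sub, map_add, map_mul, map_mul, map_one, ev_inl, ev_inr, ev_inl, ev_inr,
          sub_eq_zero]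
        exact hc)
    rw [map_sub, map_add, map_mul, map_mul, map_one, hι, hι', hι, hι', sub_eq_zero] at this
    exact this
  have hrange : Set.range s = {s false, s true} := by
    ext a
    simp only [Set.mem_range, Bool.exists_bool, Set.mem_insert_iff, Set.mem_singleton_iff]
    tauto
  refine ⟨A, hA, s false, s true, hiso _, hiso _, hsum, ?_, ?_⟩
  · rw [← hrange]; exact h1
  · intro B _ t₁ t₂ ha hb hc
    obtain ⟨φ, hφ⟩ := h2 B (fun b => if b then t₂ else t₁) ⟨by simpa using ha, by simpa using hb,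
      by simpa using hc⟩
    exact ⟨φ, by simpa using hφ false, by simpa using hφ true⟩

end Crest.Agent.R73
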