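import Mathlib
import Crest.Prelude.Def_CStarEmbedding

/-! Row 73, module M1: existence of universal C⋆-algebras given by generators and relations
(full group C⋆-algebra, `O₂`). -/

set_option autoImplicit false

namespace Crest.Agent.R73

open scoped ENNReal

noncomputable section

instance lpCStar {I : Type} {B : I → Type} [∀ i, Nontrivial (B i)] [∀ i, CStarAlgebra (B i)] :
    CStarAlgebra (lp B ∞) where

/-- the evaluation of a `*`-polynomial -/
def ev {X : Type} {B : Type} [CStarAlgebra B] (t : X → B) : FreeAlgebra ℂ (X ⊕ X) →ₐ[ℂ] B :=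
  FreeAlgebra.lift ℂ (Sum.elim t (fun x => star (t x)))

lemma ev_inl {X : Type} {B : Type} [CStarAlgebra B] (t : X → B) (x : X) :
    ev t (FreeAlgebra.ι ℂ (Sum.inl x)) = t x := by simp [ev]

lemma ev_inr {X : Type} {B : Type} [CStarAlgebra B] (t : X → B) (x : X) :
    ev t (FreeAlgebra.ι ℂ (Sum.inr x)) = star (t x) := by simp [ev]

lemma map_ev {X : Type} {B B' : Type} [CStarAlgebra B] [CStarAlgebra B'] (φ : B →⋆ₐ[ℂ] B')
    (t : X → B) (z : FreeAlgebra ℂ (X ⊕ X)) : φ (ev t z) = ev (fun x => φ (t x)) z := by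
  have : (φ.toAlgHom.comp (ev t)) = ev (fun x => φ (t x)) := by
    apply FreeAlgebra.hom_ext
    funext x
    rcases x with x | x
    · simp [ev]
    · simp [ev, map_star]
  exact DFunLike.congr_fun this z

/-- every element of the star subalgebra generated by the range of `t` is a `*`-polynomial -/
lemma mem_adjoin_iff {X : Type} {B : Type} [CStarAlgebra B] (t : X → B) (b : B) :
    b ∈ StarAlgebra.adjoin ℂ (Set.range t) ↔ ∃ z, ev t z = b := by
  have h1 : (StarAlgebra.adjoin ℂ (Set.range t)).toSubalgebra = (ev t).range := by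
    rw [StarAlgebra.adjoin_toSubalgebra, ev, ← Algebra.adjoin_range_eq_range_freeAlgebra_lift]
    congr 1
    rw [Set.Sum.elim_range]
    congr 1
    ext b
    simp only [Set.mem_star, Set.mem_range]
    constructor
    · rintro ⟨x, hx⟩; exact ⟨x, by rw [hx, star_star]⟩
    · rintro ⟨x, hx⟩; exact ⟨x, by rw [← hx, star_star]⟩
  rw [← StarSubalgebra.mem_toSubalgebra, h1]
  rfl

/-- coordinate evaluation on `ℓ^∞` -/
def evalHom {I : Type} {B : I → Type} [∀ i, Nontrivial (B i)] [∀ i, CStarAlgebra (B i)] (i : I) :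
    lp B ∞ →⋆ₐ[ℂ] B i where
  toFun f := f i
  map_one' := rfl
  map_mul' _ _ := rfl
  map_zero' := rfl
  map_add' _ _ := rfl
  commutes' _ := rfl
  map_star' _ := rfl

/-- Isometric inverse: a closed star subalgebra `G` of `A × B`, generated by the graph of
generators, on which the first coordinate dominates the second one, is a graph. -/
theorem exists_hom_of_graph {X : Type} {A B : Type} [CStarAlgebra A] [CStarAlgebra B]
    (s : X → A) (t : X → B)
    (hs : (StarAlgebra.adjoin ℂ (Set.range s)).topologicalClosure = ⊤)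
    (hle : ∀ z : FreeAlgebra ℂ (X ⊕ X), ‖ev t z‖ ≤ ‖ev s z‖) :
    ∃ φ : A →⋆ₐ[ℂ] B, ∀ x, φ (s x) = t x := by
  classical
  let st : X → A × B := fun x => (s x, t x)
  let G : StarSubalgebra ℂ (A × B) := (StarAlgebra.adjoin ℂ (Set.range st)).topologicalClosure
  have hGcl : IsClosed (G : Set (A × B)) := StarSubalgebra.isClosed_topologicalClosure _
  have hev1 : ∀ z, (ev st z).1 = ev s z := fun z => by
    simpa using map_ev (StarAlgHom.fst ℂ A B) st z
  have hev2 : ∀ z, (ev st z).2 = ev t z := fun z => by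
    simpa using map_ev (StarAlgHom.snd ℂ A B) st z
  have hdom : ∀ g ∈ G, ‖(g : A × B).2‖ ≤ ‖(g : A × B).1‖ := by
    intro g hg
    have hcl : IsClosed {g : A × B | ‖g.2‖ ≤ ‖g.1‖} :=
      isClosed_le (by fun_prop) (by fun_prop)
    have hsub : (StarAlgebra.adjoin ℂ (Set.range st) : Set (A × B)) ⊆
        {g : A × B | ‖g.2‖ ≤ ‖g.1‖} := by
      intro g hg
      obtain ⟨z, rfl⟩ := (mem_adjoin_iff st g).1 hg
      simpa [hev1, hev2] using hle z
    exact (closure_minimal hsub hcl) hg
  have : CompleteSpace G := hGcl.completeSpace_coe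
  let p : G →⋆ₐ[ℂ] A := (StarAlgHom.fst ℂ A B).comp G.subtype
  have hiso : Isometry p := by
    refine AddMonoidHomClass.isometry_of_norm p ?_
    intro g
    have h1 : ‖(g : A × B)‖ = max ‖(g : A × B).1‖ ‖(g : A × B).2‖ := Prod.norm_def _
    have h2 := hdom g g.2
    change ‖(g : A × B).1‖ = ‖(g : A × B)‖
    rw [h1, max_eq_left h2]
  have hinj : Function.Injective p := hiso.injective
  have hclr : IsClosed (Set.range p) := hiso.isClosedEmbedding.isClosed_range
  have hsurj : Function.Surjective p := by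
    have hsub : (StarAlgebra.adjoin ℂ (Set.range s) : Set A) ⊆ Set.range p := by
      intro a ha
      obtain ⟨z, rfl⟩ := (mem_adjoin_iff s a).1 ha
      refine ⟨⟨ev st z, ?_⟩, hev1 z⟩
      exact StarSubalgebra.le_topologicalClosure _ ((mem_adjoin_iff st _).2 ⟨z, rfl⟩)
    have h2 : closure (StarAlgebra.adjoin ℂ (Set.range s) : Set A) ⊆ Set.range p :=
      closure_minimal hsub hclr
    have h3 : (closure (StarAlgebra.adjoin ℂ (Set.range s) : Set A)) = Set.univ := by
      rw [← StarSubalgebra.topologicalClosure_coe, hs]; rfl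
    intro a
    exact h2 (h3 ▸ Set.mem_univ a)
  let e : G ≃⋆ₐ[ℂ] A := StarAlgEquiv.ofBijective p ⟨hinj, hsurj⟩
  refine ⟨((StarAlgHom.snd ℂ A B).comp G.subtype).comp (e.symm : A →⋆ₐ[ℂ] G), ?_⟩
  intro x
  have hmem : st x ∈ G :=
    StarSubalgebra.le_topologicalClosure _ (StarAlgebra.subset_adjoin ℂ _ ⟨x, rfl⟩)
  have hsymm : e.symm (s x) = ⟨st x, hmem⟩ := by
    rw [StarAlgEquiv.symm_apply_eq]
    rfl
  change ((e.symm (s x) : G) : A × B).2 = t x
  rw [hsymm]

/-- **Universal C⋆-algebras.** -/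
theorem exists_universal (X : Type) (Al : ∀ (B : Type) [CStarAlgebra B], (X → B) → Prop)
    (C : X → ℝ)
    (hC : ∀ (B : Type) [CStarAlgebra B] (t : X → B), Al B t → ∀ x, ‖t x‖ ≤ C x) :
    ∃ (A : Type) (_ : CStarAlgebra A) (s : X → A),
      (StarAlgebra.adjoin ℂ (Set.range s)).topologicalClosure = ⊤ ∧
      (∀ (B : Type) [CStarAlgebra B] (t : X → B), Al B t →
        ∃ φ : A →⋆ₐ[ℂ] B, ∀ x, φ (s x) = t x) ∧
      (∀ z : FreeAlgebra ℂ (X ⊕ X),
        (∀ (B : Type) [CStarAlgebra B] (t : X → B), Al B t → ev t z = 0) → ev s z = 0) := by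
  classical
  let I : Set (FreeAlgebra ℂ (X ⊕ X) → ℝ) :=
    {p | ∃ (B : Type) (_ : Nontrivial B) (_ : CStarAlgebra B) (t : X → B), Al B t ∧
      ∀ z, p z = ‖ev t z‖}
  have hI : ∀ p : I, ∃ (B : Type) (_ : Nontrivial B) (_ : CStarAlgebra B) (t : X → B), Al B t ∧
      ∀ z, (p : FreeAlgebra ℂ (X ⊕ X) → ℝ) z = ‖ev t z‖ := fun p => p.2
  choose B hnt hcs t hAl hev using hI
  have : ∀ i, Nontrivial (B i) := hnt
  let _ : ∀ i, CStarAlgebra (B i) := hcs
  let U : X → lp B ∞ := fun x => ⟨fun i => t i x, by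
    refine memℓp_infty ?_
    refine ⟨C x, ?_⟩
    rintro _ ⟨i, rfl⟩
    exact hC (B i) (t i) (hAl i) x⟩
  let S : StarSubalgebra ℂ (lp B ∞) := (StarAlgebra.adjoin ℂ (Set.range U)).topologicalClosure
  have hScl : IsClosed (S : Set (lp B ∞)) := StarSubalgebra.isClosed_topologicalClosure _
  have hUS : ∀ x, U x ∈ S := fun x =>
    StarSubalgebra.le_topologicalClosure _ (StarAlgebra.subset_adjoin ℂ _ ⟨x, rfl⟩)
  let s : X → S := fun x => ⟨U x, hUS x⟩
  have hcoe : ∀ z, ((ev s z : S) : lp B ∞) = ev U z := fun z => by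
    simpa using map_ev S.subtype s z
  have hcoord : ∀ i z, (ev U z : lp B ∞) i = ev (t i) z := fun i z =>
    map_ev (evalHom (B := B) i) U z
  have hdense : ∀ b : S, b ∈ closure (StarAlgebra.adjoin ℂ (Set.range s) : Set S) := by
    intro b
    rw [closure_subtype]
    have hb : (b : lp B ∞) ∈ closure (StarAlgebra.adjoin ℂ (Set.range U) : Set (lp B ∞)) := b.2
    refine closure_mono ?_ hb
    intro a ha
    obtain ⟨z, rfl⟩ := (mem_adjoin_iff U a).1 ha
    exact ⟨ev s z, (mem_adjoin_iff s _).2 ⟨z, rfl⟩, hcoe z⟩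
  refine ⟨S, inferInstance, s, ?_, ?_, ?_⟩
  · rw [eq_top_iff]
    intro b _
    exact hdense b
  · intro B' _ t' hAl'
    rcases subsingleton_or_nontrivial B' with hB' | hB'
    · exact ⟨{ toFun := fun _ => 0, map_one' := Subsingleton.elim _ _,
                map_mul' := fun _ _ => Subsingleton.elim _ _,
                map_zero' := rfl, map_add' := fun _ _ => Subsingleton.elim _ _,
                commutes' := fun _ => Subsingleton.elim _ _,
                map_star' := fun _ => Subsingleton.elim _ _ }, fun _ => Subsingleton.elim _ _⟩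
    · let p : I := ⟨fun z => ‖ev t' z‖, B', hB', inferInstance, t', hAl', fun _ => rfl⟩
      have h1 : ∀ z, ‖ev t' z‖ = ‖ev (t p) z‖ := fun z => hev p z
      refine exists_hom_of_graph (A := S) s t' ?_ ?_
      · rw [eq_top_iff]
        intro b _
        exact hdense b
      · intro z
        rw [h1 z, ← hcoord p z]
        have h2 : ‖(ev U z : lp B ∞) p‖ ≤ ‖ev U z‖ := lp.norm_apply_le_norm (by simp) _ _
        have h3 : ‖ev s z‖ = ‖ev U z‖ := by
          rw [← hcoe]; rfl
        rw [h3]; exact h2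
  · intro z hz
    apply Subtype.ext
    rw [hcoe]
    ext i
    rw [hcoord]
    exact hz (B i) (t i) (hAl i)

end

end Crest.Agent.R73
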