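import Mathlib

/-!
# Row 73: the finite sets `Y n`, the permutations `pa, pb, pc`, relations, transitivity
-/

set_option autoImplicit false

namespace Crest.Agent.R73.Yn27

/-- sequences `(y_0, ..., y_{n-1})` of elements of `F_p^3` (with `y_n = (0,0,1)` implicit). -/
def Y (p : ℕ) : ℕ → Type
  | 0 => PUnit
  | n + 1 => (ZMod p × ZMod p × ZMod p) × Y p n

namespace Y

variable {p : ℕ}

instance instDecEq : ∀ n : ℕ, DecidableEq (Y p n)
  | 0 => inferInstanceAs (DecidableEq PUnit)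
  | n + 1 =>
    letI := instDecEq n
    inferInstanceAs (DecidableEq ((ZMod p × ZMod p × ZMod p) × Y p n))

instance instFintype [NeZero p] : ∀ n : ℕ, Fintype (Y p n)
  | 0 => inferInstanceAs (Fintype PUnit)
  | n + 1 =>
    letI := instFintype n
    inferInstanceAs (Fintype ((ZMod p × ZMod p × ZMod p) × Y p n))

instance instInhabited : ∀ n : ℕ, Inhabited (Y p n)
  | 0 => inferInstanceAs (Inhabited PUnit)
  | n + 1 =>
    letI := instInhabited n
    inferInstanceAs (Inhabited ((ZMod p × ZMod p × ZMod p) × Y p n))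

theorem card_eq [NeZero p] : ∀ n : ℕ, Fintype.card (Y p n) = p ^ (3 * n)
  | 0 => by
    change Fintype.card PUnit = _
    simp
  | n + 1 => by
    change Fintype.card ((ZMod p × ZMod p × ZMod p) × Y p n) = _
    rw [Fintype.card_prod, card_eq n]
    simp [ZMod.card]
    ring

/-- `(q, z)` as an element of `Y (n+1)` -/
def cons {n : ℕ} (q : ZMod p × ZMod p × ZMod p) (z : Y p n) : Y p (n + 1) := (q, z)

/-- the equivalence `F^3 × Y n ≃ Y (n+1)` -/
def consE (n : ℕ) : ((ZMod p × ZMod p × ZMod p) × Y p n) ≃ Y p (n + 1) := Equiv.refl _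

@[simp] theorem consE_apply (n : ℕ) (q : ZMod p × ZMod p × ZMod p) (z : Y p n) :
    consE n (q, z) = cons q z := rfl

theorem exists_cons {n : ℕ} (y : Y p (n + 1)) : ∃ q1 q2 q3 z, y = cons (q1, q2, q3) z :=
  ⟨y.1.1, y.1.2.1, y.1.2.2, y.2, rfl⟩

theorem cons_inj {n : ℕ} {q q' : ZMod p × ZMod p × ZMod p} {z z' : Y p n} :
    cons q z = cons q' z' ↔ q = q' ∧ z = z' := Prod.mk_inj

theorem sum_succ [NeZero p] {M : Type*} [AddCommMonoid M] (n : ℕ) (f : Y p (n + 1) → M) :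
    ∑ y, f y = ∑ z : Y p n, ∑ q : ZMod p × ZMod p × ZMod p, f (cons q z) := by
  rw [← Equiv.sum_comp (consE n) f, Fintype.sum_prod_type, Finset.sum_comm]
  rfl

/-- third coordinate of `y_0` -/
def hd3 : ∀ n : ℕ, Y p n → ZMod p
  | 0, _ => 1
  | _ + 1, y => y.1.2.2

/-- second coordinate of `y_0` -/
def hd2 : ∀ n : ℕ, Y p n → ZMod p
  | 0, _ => 0
  | _ + 1, y => y.1.2.1

/-- first coordinate of `y_0` -/
def hd1 : ∀ n : ℕ, Y p n → ZMod p
  | 0, _ => 0
  | _ + 1, y => y.1.1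

/-- `y_2 ↦ y_2 - y_1` -/
def ea : Equiv.Perm (ZMod p × ZMod p × ZMod p) where
  toFun q := (q.1, q.2.1 - q.1, q.2.2)
  invFun q := (q.1, q.2.1 + q.1, q.2.2)
  left_inv q := by simp
  right_inv q := by simp

/-- `y_3 ↦ y_3 - y_2` -/
def eb : Equiv.Perm (ZMod p × ZMod p × ZMod p) where
  toFun q := (q.1, q.2.1, q.2.2 - q.2.1)
  invFun q := (q.1, q.2.1, q.2.2 + q.2.1)
  left_inv q := by simp
  right_inv q := by simp

/-- `y_1 ↦ y_1 - r` -/
def ec (r : ZMod p) : Equiv.Perm (ZMod p × ZMod p × ZMod p) where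
  toFun q := (q.1 - r, q.2.1, q.2.2)
  invFun q := (q.1 + r, q.2.1, q.2.2)
  left_inv q := by simp
  right_inv q := by simp

def pa : ∀ n : ℕ, Equiv.Perm (Y p n)
  | 0 => 1
  | n + 1 => Equiv.prodCongr (α₁ := ZMod p × ZMod p × ZMod p) ea (pa n)

def pb : ∀ n : ℕ, Equiv.Perm (Y p n)
  | 0 => 1
  | n + 1 => Equiv.prodCongr (α₁ := ZMod p × ZMod p × ZMod p) eb (pb n)

def pcFun : ∀ n : ℕ, Y p n → Y p n
  | 0, y => y
  | n + 1, y => ((y.1.1 - hd3 n y.2, y.1.2.1, y.1.2.2), pcFun n y.2)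

def pcInv : ∀ n : ℕ, Y p n → Y p n
  | 0, y => y
  | n + 1, y => ((y.1.1 + hd3 n y.2, y.1.2.1, y.1.2.2), pcInv n y.2)

theorem hd3_pcFun : ∀ (n : ℕ) (y : Y p n), hd3 n (pcFun n y) = hd3 n y
  | 0, _ => rfl
  | _ + 1, _ => rfl

theorem hd3_pcInv : ∀ (n : ℕ) (y : Y p n), hd3 n (pcInv n y) = hd3 n y
  | 0, _ => rfl
  | _ + 1, _ => rfl

theorem pcInv_pcFun : ∀ (n : ℕ) (y : Y p n), pcInv n (pcFun n y) = y
  | 0, _ => rfl
  | n + 1, y => by
    obtain ⟨⟨q1, q2, q3⟩, z⟩ := y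
    simp only [pcFun, pcInv, hd3_pcFun, pcInv_pcFun n z, sub_add_cancel]; rfl

theorem pcFun_pcInv : ∀ (n : ℕ) (y : Y p n), pcFun n (pcInv n y) = y
  | 0, _ => rfl
  | n + 1, y => by
    obtain ⟨⟨q1, q2, q3⟩, z⟩ := y
    simp only [pcFun, pcInv, hd3_pcInv, pcFun_pcInv n z, add_sub_cancel_right]; rfl

def pc (n : ℕ) : Equiv.Perm (Y p n) where
  toFun := pcFun n
  invFun := pcInv n
  left_inv := pcInv_pcFun n
  right_inv := pcFun_pcInv n

@[simp] theorem pa_cons (n : ℕ) (q1 q2 q3 : ZMod p) (z : Y p n) :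
    pa (n + 1) (cons (q1, q2, q3) z) = cons (q1, q2 - q1, q3) (pa n z) := rfl

@[simp] theorem pb_cons (n : ℕ) (q1 q2 q3 : ZMod p) (z : Y p n) :
    pb (n + 1) (cons (q1, q2, q3) z) = cons (q1, q2, q3 - q2) (pb n z) := rfl

@[simp] theorem pc_cons (n : ℕ) (q1 q2 q3 : ZMod p) (z : Y p n) :
    pc (n + 1) (cons (q1, q2, q3) z) = cons (q1 - hd3 n z, q2, q3) (pc n z) := rfl

@[simp] theorem hd1_cons (n : ℕ) (q1 q2 q3 : ZMod p) (z : Y p n) :
    hd1 (n + 1) (cons (q1, q2, q3) z) = q1 := rfl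

@[simp] theorem hd2_cons (n : ℕ) (q1 q2 q3 : ZMod p) (z : Y p n) :
    hd2 (n + 1) (cons (q1, q2, q3) z) = q2 := rfl

@[simp] theorem hd3_cons (n : ℕ) (q1 q2 q3 : ZMod p) (z : Y p n) :
    hd3 (n + 1) (cons (q1, q2, q3) z) = q3 := rfl

@[simp] theorem hd3_pa : ∀ (n : ℕ) (y : Y p n), hd3 n (pa n y) = hd3 n y
  | 0, _ => rfl
  | _ + 1, _ => rfl

@[simp] theorem hd3_pb : ∀ (n : ℕ) (y : Y p n), hd3 n (pb n y) = hd3 n y - hd2 n y
  | 0, _ => by simp [hd3, hd2]
  | _ + 1, _ => rfl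

@[simp] theorem hd3_pc (n : ℕ) (y : Y p n) : hd3 n (pc n y) = hd3 n y := hd3_pcFun n y

@[simp] theorem hd2_pa : ∀ (n : ℕ) (y : Y p n), hd2 n (pa n y) = hd2 n y - hd1 n y
  | 0, _ => by simp [hd1, hd2]
  | _ + 1, _ => rfl

@[simp] theorem hd2_pb : ∀ (n : ℕ) (y : Y p n), hd2 n (pb n y) = hd2 n y
  | 0, _ => rfl
  | _ + 1, _ => rfl

@[simp] theorem hd2_pc : ∀ (n : ℕ) (y : Y p n), hd2 n (pc n y) = hd2 n y
  | 0, _ => rfl
  | _ + 1, _ => rfl

@[simp] theorem hd1_pa : ∀ (n : ℕ) (y : Y p n), hd1 n (pa n y) = hd1 n y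
  | 0, _ => rfl
  | _ + 1, _ => rfl

@[simp] theorem hd1_pb : ∀ (n : ℕ) (y : Y p n), hd1 n (pb n y) = hd1 n y
  | 0, _ => rfl
  | _ + 1, _ => rfl


/-! ### The ambient sequence space -/

/-- triples of sequences -/
abbrev V (p : ℕ) := (ℕ → ZMod p) × (ℕ → ZMod p) × (ℕ → ZMod p)

def sh (k : ℕ) (f : ℕ → ZMod p) : ℕ → ZMod p := fun i => f (i + k)

@[simp] theorem sh_apply (k : ℕ) (f : ℕ → ZMod p) (i : ℕ) : sh k f i = f (i + k) := rfl

def VA : Equiv.Perm (V p) where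
  toFun v := (v.1, v.2.1 - v.1, v.2.2)
  invFun v := (v.1, v.2.1 + v.1, v.2.2)
  left_inv v := by simp
  right_inv v := by simp

def VB : Equiv.Perm (V p) where
  toFun v := (v.1, v.2.1, v.2.2 - v.2.1)
  invFun v := (v.1, v.2.1, v.2.2 + v.2.1)
  left_inv v := by simp
  right_inv v := by simp

/-- `v_1 ↦ v_1 - sh k v_3` -/
def V31 (k : ℕ) : Equiv.Perm (V p) where
  toFun v := (v.1 - sh k v.2.2, v.2.1, v.2.2)
  invFun v := (v.1 + sh k v.2.2, v.2.1, v.2.2)
  left_inv v := by simp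
  right_inv v := by simp

/-- `v_2 ↦ v_2 - sh k v_3` -/
def V32 (k : ℕ) : Equiv.Perm (V p) where
  toFun v := (v.1, v.2.1 - sh k v.2.2, v.2.2)
  invFun v := (v.1, v.2.1 + sh k v.2.2, v.2.2)
  left_inv v := by simp
  right_inv v := by simp

/-- `v_1 ↦ v_1 - sh k v_2` -/
def V21 (k : ℕ) : Equiv.Perm (V p) where
  toFun v := (v.1 - sh k v.2.1, v.2.1, v.2.2)
  invFun v := (v.1 + sh k v.2.1, v.2.1, v.2.2)
  left_inv v := by simp
  right_inv v := by simp

/-- `v_3 ↦ v_3 - v_1` -/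
def V13 : Equiv.Perm (V p) where
  toFun v := (v.1, v.2.1, v.2.2 - v.1)
  invFun v := (v.1, v.2.1, v.2.2 + v.1)
  left_inv v := by simp
  right_inv v := by simp

theorem VA_apply (v : V p) : VA v = (v.1, v.2.1 - v.1, v.2.2) := rfl
theorem VB_apply (v : V p) : VB v = (v.1, v.2.1, v.2.2 - v.2.1) := rfl
theorem V31_apply (k : ℕ) (v : V p) : V31 k v = (v.1 - sh k v.2.2, v.2.1, v.2.2) := rfl
theorem V32_apply (k : ℕ) (v : V p) : V32 k v = (v.1, v.2.1 - sh k v.2.2, v.2.2) := rfl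
theorem V21_apply (k : ℕ) (v : V p) : V21 k v = (v.1 - sh k v.2.1, v.2.1, v.2.2) := rfl
theorem V13_apply (v : V p) : V13 v = (v.1, v.2.1, v.2.2 - v.1) := rfl
theorem VA_inv (v : V p) : VA⁻¹ v = (v.1, v.2.1 + v.1, v.2.2) := rfl
theorem VB_inv (v : V p) : VB⁻¹ v = (v.1, v.2.1, v.2.2 + v.2.1) := rfl
theorem V31_inv (k : ℕ) (v : V p) : (V31 k)⁻¹ v = (v.1 + sh k v.2.2, v.2.1, v.2.2) := rfl
theorem V32_inv (k : ℕ) (v : V p) : (V32 k)⁻¹ v = (v.1, v.2.1 + sh k v.2.2, v.2.2) := rfl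
theorem V21_inv (k : ℕ) (v : V p) : (V21 k)⁻¹ v = (v.1 + sh k v.2.1, v.2.1, v.2.2) := rfl

theorem comm_AB : VA * VB * VA⁻¹ * VB⁻¹ = (V13 : Equiv.Perm (V p)) := by
  ext v i <;>
    simp [VA_apply, VB_apply, VA_inv, VB_inv, V13_apply, Equiv.Perm.mul_apply] <;> ring

theorem comm_31A (k : ℕ) : V31 k * VA * (V31 k)⁻¹ * VA⁻¹ = (V32 k : Equiv.Perm (V p)) := by
  ext v i <;>
    simp [VA_apply, VA_inv, V31_apply, V31_inv, V32_apply, Equiv.Perm.mul_apply] <;> ring

theorem comm_B31 (k : ℕ) : VB * V31 k * VB⁻¹ * (V31 k)⁻¹ = (V21 k : Equiv.Perm (V p)) := by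
  ext v i <;>
    simp [VB_apply, VB_inv, V31_apply, V31_inv, V21_apply, Equiv.Perm.mul_apply] <;> ring

theorem comm_32_21 (k : ℕ) :
    V32 1 * V21 k * (V32 1)⁻¹ * (V21 k)⁻¹ = (V31 (k + 1) : Equiv.Perm (V p)) := by
  ext v i <;>
    simp [V32_apply, V32_inv, V31_apply, V21_inv, V21_apply, Equiv.Perm.mul_apply, add_assoc,
      add_comm, add_left_comm] <;> ring

/-! ### words -/

/-- action of words in `a, b, c` on `Y n` -/
def act (n : ℕ) : FreeGroup (Fin 3) →* Equiv.Perm (Y p n) :=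
  FreeGroup.lift ![pa n, pb n, pc n]

/-- action of words in `a, b, c` on the ambient space -/
def Act : FreeGroup (Fin 3) →* Equiv.Perm (V p) :=
  FreeGroup.lift ![VA, VB, V31 1]

/-- embedding of `Y n` in the space of sequences -/
def emb : ∀ n : ℕ, Y p n → V p
  | 0, _ => (0, 0, fun i => if i = 0 then 1 else 0)
  | n + 1, y =>
    (fun i => Nat.casesOn i y.1.1 (emb n y.2).1,
     fun i => Nat.casesOn i y.1.2.1 (emb n y.2).2.1,
     fun i => Nat.casesOn i y.1.2.2 (emb n y.2).2.2)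

theorem emb_cons (n : ℕ) (q1 q2 q3 : ZMod p) (z : Y p n) :
    emb (n + 1) (cons (q1, q2, q3) z) =
      (fun i => Nat.casesOn i q1 (emb n z).1,
       fun i => Nat.casesOn i q2 (emb n z).2.1,
       fun i => Nat.casesOn i q3 (emb n z).2.2) := rfl

theorem emb_hd3 : ∀ (n : ℕ) (y : Y p n), (emb n y).2.2 0 = hd3 n y
  | 0, _ => by simp [emb, hd3]
  | _ + 1, _ => rfl

theorem emb_injective : ∀ n : ℕ, Function.Injective (emb (p := p) n)
  | 0 => fun _ _ _ => rfl
  | n + 1 => by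
    intro y y' h
    obtain ⟨q1, q2, q3, z, rfl⟩ := exists_cons y
    obtain ⟨q1', q2', q3', z', rfl⟩ := exists_cons y'
    rw [emb_cons, emb_cons, Prod.mk_inj, Prod.mk_inj] at h
    obtain ⟨h1, h2, h3⟩ := h
    have e1 : q1 = q1' := congrFun h1 0
    have e2 : q2 = q2' := congrFun h2 0
    have e3 : q3 = q3' := congrFun h3 0
    have ez : emb n z = emb n z' := by
      refine Prod.ext (funext fun i => ?_) (Prod.ext (funext fun i => ?_) (funext fun i => ?_))
      · exact congrFun h1 (i + 1)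
      · exact congrFun h2 (i + 1)
      · exact congrFun h3 (i + 1)
    have := emb_injective n ez
    rw [cons_inj]
    exact ⟨by rw [e1, e2, e3], this⟩

theorem emb_pa : ∀ (n : ℕ) (y : Y p n), emb n (pa n y) = VA (emb n y)
  | 0, y => by
    change emb 0 y = VA (emb 0 y)
    simp [emb, VA_apply]
  | n + 1, y => by
    obtain ⟨q1, q2, q3, z, rfl⟩ := exists_cons y
    rw [pa_cons, emb_cons, emb_cons, emb_pa n z, VA_apply, VA_apply]
    refine Prod.ext (funext fun i => ?_) (Prod.ext (funext fun i => ?_) (funext fun i => ?_)) <;>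
      cases i <;> rfl

theorem emb_pb : ∀ (n : ℕ) (y : Y p n), emb n (pb n y) = VB (emb n y)
  | 0, y => by
    change emb 0 y = VB (emb 0 y)
    simp [emb, VB_apply]
  | n + 1, y => by
    obtain ⟨q1, q2, q3, z, rfl⟩ := exists_cons y
    rw [pb_cons, emb_cons, emb_cons, emb_pb n z, VB_apply, VB_apply]
    refine Prod.ext (funext fun i => ?_) (Prod.ext (funext fun i => ?_) (funext fun i => ?_)) <;>
      cases i <;> rfl

theorem emb_pc : ∀ (n : ℕ) (y : Y p n), emb n (pc n y) = V31 1 (emb n y)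
  | 0, y => by
    change emb 0 y = V31 1 (emb 0 y)
    refine Prod.ext (funext fun i => ?_) (Prod.ext (funext fun i => ?_) (funext fun i => ?_))
    · simp [emb, V31_apply]
    · rfl
    · rfl
  | n + 1, y => by
    obtain ⟨q1, q2, q3, z, rfl⟩ := exists_cons y
    rw [pc_cons, emb_cons, emb_cons, emb_pc n z, V31_apply, V31_apply]
    refine Prod.ext (funext fun i => ?_) (Prod.ext (funext fun i => ?_) (funext fun i => ?_))
    · cases i with
      | zero => simp [emb_hd3]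
      | succ i => rfl
    · cases i <;> rfl
    · cases i <;> rfl

theorem emb_act (n : ℕ) (g : FreeGroup (Fin 3)) :
    ∀ y : Y p n, emb n (act n g y) = Act g (emb n y) := by
  induction g using FreeGroup.induction_on with
  | C1 => intro y; simp
  | of i =>
    intro y
    fin_cases i
    · simpa [act, Act] using emb_pa n y
    · simpa [act, Act] using emb_pb n y
    · simpa [act, Act] using emb_pc n y
  | inv_of i ih =>
    intro y
    rw [map_inv, map_inv]
    have h := ih ((act n (FreeGroup.of i))⁻¹ y)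
    rw [Equiv.Perm.inv_def, Equiv.apply_symm_apply] at h
    rw [h, Equiv.Perm.inv_def, Equiv.Perm.inv_def, Equiv.symm_apply_apply]
  | mul g h ihg ihh =>
    intro y
    rw [map_mul, map_mul, Equiv.Perm.mul_apply, Equiv.Perm.mul_apply, ihg, ihh]

theorem act_a (n : ℕ) : act (p := p) n (FreeGroup.of 0) = pa n := by simp [act]
theorem act_b (n : ℕ) : act (p := p) n (FreeGroup.of 1) = pb n := by simp [act]
theorem act_c (n : ℕ) : act (p := p) n (FreeGroup.of 2) = pc n := by simp [act]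
theorem Act_a : Act (p := p) (FreeGroup.of 0) = VA := by simp [Act]
theorem Act_b : Act (p := p) (FreeGroup.of 1) = VB := by simp [Act]
theorem Act_c : Act (p := p) (FreeGroup.of 2) = V31 1 := by simp [Act]

theorem exists_word_31 (k : ℕ) : ∃ g, Act (p := p) g = V31 (k + 1) := by
  induction k with
  | zero => exact ⟨_, Act_c⟩
  | succ k ih =>
    obtain ⟨g, hg⟩ := ih
    obtain ⟨h21, hh21⟩ : ∃ h, Act (p := p) h = V21 (k + 1) :=
      ⟨FreeGroup.of 1 * g * (FreeGroup.of 1)⁻¹ * g⁻¹, by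
        simp only [map_mul, map_inv, Act_b, hg, comm_B31]⟩
    obtain ⟨h32, hh32⟩ : ∃ h, Act (p := p) h = V32 1 :=
      ⟨FreeGroup.of 2 * FreeGroup.of 0 * (FreeGroup.of 2)⁻¹ * (FreeGroup.of 0)⁻¹, by
        simp only [map_mul, map_inv, Act_a, Act_c, comm_31A]⟩
    exact ⟨h32 * h21 * h32⁻¹ * h21⁻¹, by
      simp only [map_mul, map_inv, hh32, hh21, comm_32_21]⟩

theorem exists_word_32 (k : ℕ) : ∃ g, Act (p := p) g = V32 (k + 1) := by
  obtain ⟨g, hg⟩ := exists_word_31 (p := p) k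
  exact ⟨g * FreeGroup.of 0 * g⁻¹ * (FreeGroup.of 0)⁻¹, by
    simp only [map_mul, map_inv, Act_a, hg, comm_31A]⟩

/-- values of `emb` beyond `n` -/
theorem emb_ge : ∀ (n : ℕ) (y : Y p n) (i : ℕ), n < i →
    (emb n y).1 i = 0 ∧ (emb n y).2.1 i = 0 ∧ (emb n y).2.2 i = 0
  | 0, y, i, hi => by
    refine ⟨rfl, rfl, ?_⟩
    simp only [emb]
    rw [if_neg (by omega)]
  | n + 1, y, i, hi => by
    obtain ⟨q1, q2, q3, z, rfl⟩ := exists_cons y
    obtain ⟨j, rfl⟩ : ∃ j, i = j + 1 := ⟨i - 1, by omega⟩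
    exact emb_ge n z j (by omega)

theorem emb_eq : ∀ (n : ℕ) (y : Y p n),
    (emb n y).1 n = 0 ∧ (emb n y).2.1 n = 0 ∧ (emb n y).2.2 n = 1
  | 0, y => by
    refine ⟨rfl, rfl, ?_⟩
    simp [emb]
  | n + 1, y => by
    obtain ⟨q1, q2, q3, z, rfl⟩ := exists_cons y
    exact emb_eq n z

theorem exists_word_q1 (n : ℕ) : ∃ g, ∀ (q1 q2 q3 : ZMod p) (z : Y p n),
    act (n + 1) g (cons (q1, q2, q3) z) = cons (q1 - 1, q2, q3) z := by
  obtain ⟨g, hg⟩ := exists_word_31 (p := p) n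
  refine ⟨g, fun q1 q2 q3 z => emb_injective _ ?_⟩
  rw [emb_act, hg, V31_apply, emb_cons, emb_cons]
  refine Prod.ext (funext fun i => ?_) rfl
  cases i with
  | zero =>
    have := (emb_eq n z).2.2
    change q1 - sh (n + 1) (fun i => Nat.casesOn i q3 (emb n z).2.2) 0 = q1 - 1
    rw [sh_apply, zero_add]
    change q1 - (emb n z).2.2 n = q1 - 1
    rw [this]
  | succ i =>
    have := (emb_ge n z (i + 1 + n) (by omega)).2.2
    change (emb n z).1 i - (emb n z).2.2 (i + 1 + n) = (emb n z).1 i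
    rw [this, sub_zero]

theorem exists_word_q2 (n : ℕ) : ∃ g, ∀ (q1 q2 q3 : ZMod p) (z : Y p n),
    act (n + 1) g (cons (q1, q2, q3) z) = cons (q1, q2 - 1, q3) z := by
  obtain ⟨g, hg⟩ := exists_word_32 (p := p) n
  refine ⟨g, fun q1 q2 q3 z => emb_injective _ ?_⟩
  rw [emb_act, hg, V32_apply, emb_cons, emb_cons]
  refine Prod.ext rfl (Prod.ext (funext fun i => ?_) rfl)
  cases i with
  | zero =>
    have := (emb_eq n z).2.2
    change q2 - sh (n + 1) (fun i => Nat.casesOn i q3 (emb n z).2.2) 0 = q2 - 1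
    rw [sh_apply, zero_add]
    change q2 - (emb n z).2.2 n = q2 - 1
    rw [this]
  | succ i =>
    have := (emb_ge n z (i + 1 + n) (by omega)).2.2
    change (emb n z).2.1 i - (emb n z).2.2 (i + 1 + n) = (emb n z).2.1 i
    rw [this, sub_zero]

theorem exists_word_q3 (n : ℕ) : ∃ g, ∀ (q1 q2 q3 : ZMod p) (z : Y p n),
    act (n + 1) g (cons (q1, q2, q3) z) = cons (q1, q2, q3 - 1) z := by
  obtain ⟨g, hg⟩ := exists_word_q2 (p := p) n
  refine ⟨g * FreeGroup.of 1 * g⁻¹ * (FreeGroup.of 1)⁻¹, fun q1 q2 q3 z => ?_⟩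
  have hginv : ∀ (q1 q2 q3 : ZMod p) (z : Y p n),
      (act (n + 1) g)⁻¹ (cons (q1, q2, q3) z) = cons (q1, q2 + 1, q3) z := by
    intro q1 q2 q3 z
    rw [Equiv.Perm.inv_def, Equiv.symm_apply_eq, hg, add_sub_cancel_right]
  have hbinv : (pb (n + 1))⁻¹ (cons (q1, q2, q3) z) = cons (q1, q2, q3 + q2) ((pb n)⁻¹ z) := by
    rw [Equiv.Perm.inv_def, Equiv.symm_apply_eq, pb_cons, add_sub_cancel_right,
      Equiv.Perm.inv_def, Equiv.apply_symm_apply]
  simp only [map_mul, map_inv, Equiv.Perm.mul_apply, act_b]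
  rw [hbinv, hginv, pb_cons, hg, Equiv.Perm.inv_def, Equiv.apply_symm_apply]
  congr 2
  · ext <;> simp
    ring

theorem exists_word_fiber [NeZero p] (n : ℕ) (q1 q2 q3 q1' q2' q3' : ZMod p) (z : Y p n) :
    ∃ g, act (n + 1) g (cons (q1, q2, q3) z) = cons (q1', q2', q3') z := by
  obtain ⟨g1, h1⟩ := exists_word_q1 (p := p) n
  obtain ⟨g2, h2⟩ := exists_word_q2 (p := p) n
  obtain ⟨g3, h3⟩ := exists_word_q3 (p := p) n
  have i1 : ∀ (k : ℕ) (q1 q2 q3 : ZMod p) (z : Y p n),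
      act (n + 1) (g1 ^ k) (cons (q1, q2, q3) z) = cons (q1 - (k : ZMod p), q2, q3) z := by
    intro k
    induction k with
    | zero => intro q1 q2 q3 z; simp
    | succ k ih =>
      intro q1 q2 q3 z
      rw [pow_succ', map_mul, Equiv.Perm.mul_apply, ih, h1]
      congr 2
      push_cast
      ring
  have i2 : ∀ (k : ℕ) (q1 q2 q3 : ZMod p) (z : Y p n),
      act (n + 1) (g2 ^ k) (cons (q1, q2, q3) z) = cons (q1, q2 - k, q3) z := by
    intro k
    induction k with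
    | zero => intro q1 q2 q3 z; simp
    | succ k ih =>
      intro q1 q2 q3 z
      rw [pow_succ', map_mul, Equiv.Perm.mul_apply, ih, h2]
      congr 3
      push_cast
      ring
  have i3 : ∀ (k : ℕ) (q1 q2 q3 : ZMod p) (z : Y p n),
      act (n + 1) (g3 ^ k) (cons (q1, q2, q3) z) = cons (q1, q2, q3 - k) z := by
    intro k
    induction k with
    | zero => intro q1 q2 q3 z; simp
    | succ k ih =>
      intro q1 q2 q3 z
      rw [pow_succ', map_mul, Equiv.Perm.mul_apply, ih, h3]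
      congr 3
      push_cast
      ring
  refine ⟨g3 ^ (q3 - q3').val * g2 ^ (q2 - q2').val * g1 ^ (q1 - q1').val, ?_⟩
  rw [map_mul, map_mul, Equiv.Perm.mul_apply, Equiv.Perm.mul_apply, i1, i2, i3]
  simp only [ZMod.natCast_val, ZMod.cast_id', id, sub_sub_cancel]

theorem act_cons (n : ℕ) (g : FreeGroup (Fin 3)) (q : ZMod p × ZMod p × ZMod p) (z : Y p n) :
    ∃ q', act (n + 1) g (cons q z) = cons q' (act n g z) := by
  induction g using FreeGroup.induction_on generalizing q z with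
  | C1 => exact ⟨q, by simp⟩
  | of i =>
    obtain ⟨q1, q2, q3⟩ := q
    fin_cases i
    · exact ⟨_, by
        change act (n + 1) (FreeGroup.of 0) _ = cons _ (act n (FreeGroup.of 0) z)
        rw [act_a, act_a]; exact pa_cons n q1 q2 q3 z⟩
    · exact ⟨_, by
        change act (n + 1) (FreeGroup.of 1) _ = cons _ (act n (FreeGroup.of 1) z)
        rw [act_b, act_b]; exact pb_cons n q1 q2 q3 z⟩
    · exact ⟨_, by
        change act (n + 1) (FreeGroup.of 2) _ = cons _ (act n (FreeGroup.of 2) z)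
        rw [act_c, act_c]; exact pc_cons n q1 q2 q3 z⟩
  | inv_of i ih =>
    obtain ⟨q1, q2, q3, z', hz'⟩ := exists_cons ((act (n + 1) (FreeGroup.of i))⁻¹ (cons q z))
    obtain ⟨q', hq'⟩ := ih (q1, q2, q3) z'
    refine ⟨(q1, q2, q3), ?_⟩
    rw [map_inv, map_inv, hz']
    rw [← hz', Equiv.Perm.inv_def, Equiv.apply_symm_apply, cons_inj] at hq'
    rw [hq'.2, Equiv.Perm.inv_def, Equiv.symm_apply_apply]
  | mul g h ihg ihh =>
    obtain ⟨q', hq'⟩ := ihh q z
    obtain ⟨q'', hq''⟩ := ihg q' (act n h z)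
    exact ⟨q'', by rw [map_mul, map_mul, Equiv.Perm.mul_apply, Equiv.Perm.mul_apply, hq', hq'']⟩

/-- transitivity -/
theorem transitive [NeZero p] : ∀ (n : ℕ) (y y' : Y p n), ∃ g, act n g y = y'
  | 0, _, _ => ⟨1, rfl⟩
  | n + 1, y, y' => by
    obtain ⟨q1, q2, q3, z, rfl⟩ := exists_cons y
    obtain ⟨q1', q2', q3', z', rfl⟩ := exists_cons y'
    obtain ⟨g, hg⟩ := transitive n z z'
    obtain ⟨⟨r1, r2, r3⟩, hr⟩ := act_cons n g (q1, q2, q3) z
    obtain ⟨h, hh⟩ := exists_word_fiber n r1 r2 r3 q1' q2' q3' z'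
    exact ⟨h * g, by rw [map_mul, Equiv.Perm.mul_apply, hr, hg, hh]⟩

/-- separation of points -/
theorem separates : ∀ (n : ℕ) (y y' : Y p n),
    (∀ g, hd3 n (act n g y) = hd3 n (act n g y')) → y = y'
  | 0, _, _, _ => rfl
  | n + 1, y, y', H => by
    obtain ⟨q1, q2, q3, z, rfl⟩ := exists_cons y
    obtain ⟨q1', q2', q3', z', rfl⟩ := exists_cons y'
    -- coordinates of level 0, for all translates
    have H2 : ∀ g, hd2 (n + 1) (act (n + 1) g (cons (q1, q2, q3) z)) =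
        hd2 (n + 1) (act (n + 1) g (cons (q1', q2', q3') z')) := by
      intro g
      have h1 := H (FreeGroup.of 1 * g)
      rw [map_mul, Equiv.Perm.mul_apply, Equiv.Perm.mul_apply, act_b, hd3_pb, hd3_pb, H g] at h1
      exact sub_right_injective h1
    have H1 : ∀ g, hd1 (n + 1) (act (n + 1) g (cons (q1, q2, q3) z)) =
        hd1 (n + 1) (act (n + 1) g (cons (q1', q2', q3') z')) := by
      intro g
      have h1 := H2 (FreeGroup.of 0 * g)
      rw [map_mul, Equiv.Perm.mul_apply, Equiv.Perm.mul_apply, act_a, hd2_pa, hd2_pa, H2 g] at h1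
      exact sub_right_injective h1
    have H0 : ∀ g, hd3 n (act n g z) = hd3 n (act n g z') := by
      intro g
      have h1 := H1 (FreeGroup.of 2 * g)
      have h2 := H1 g
      obtain ⟨⟨r1, r2, r3⟩, hr⟩ := act_cons n g (q1, q2, q3) z
      obtain ⟨⟨r1', r2', r3'⟩, hr'⟩ := act_cons n g (q1', q2', q3') z'
      rw [map_mul, Equiv.Perm.mul_apply, Equiv.Perm.mul_apply, act_c, hr, hr', pc_cons, pc_cons,
        hd1_cons, hd1_cons] at h1
      rw [hr, hr', hd1_cons, hd1_cons] at h2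
      rw [h2] at h1
      exact sub_right_injective h1
    have hz := separates n z z' H0
    have e3 := H 1
    have e2 := H2 1
    have e1 := H1 1
    simp only [map_one, Equiv.Perm.coe_one, id, hd1_cons, hd2_cons, hd3_cons] at e1 e2 e3
    rw [cons_inj]
    exact ⟨by rw [e1, e2, e3], hz⟩

end Y

end Crest.Agent.R73.Yn27
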